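import Crest.Agent.R84.Flow
import Crest.Agent.R84.CalcCont
import Crest.Agent.R84.MeanShift

/-!
# R84 task MM: basic properties of `m(w) = mean_r ‖T U_r w ξ‖²` (and of `β`).
-/

set_option autoImplicit false

namespace Crest.Agent.R84

open Crest.OpAlg Filter

variable {H : Type*} [NormedAddCommGroup H] [InnerProductSpace ℂ H] [CompleteSpace H]

/-- the function averaged in `mm`, for a general vector -/
theorem bc_T_wave (D : LineCalculus H) (T : H →L[ℂ] H) (x : H) :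
    BC fun r : ℝ => ‖T (D.wave r x)‖ ^ 2 := by
  refine ⟨?_, (‖T‖ * ‖x‖) ^ 2, fun r => ?_⟩
  · exact ((T.continuous.comp (continuous_wave_apply D x)).norm).pow 2
  · rw [abs_of_nonneg (by positivity)]
    have : ‖T (D.wave r x)‖ ≤ ‖T‖ * ‖x‖ := by
      have := T.le_opNorm (D.wave r x)
      rwa [norm_wave_apply] at this
    exact pow_le_pow_left₀ (norm_nonneg _) this 2

theorem T_wave_sq_le (D : LineCalculus H) (T : H →L[ℂ] H) (x : H) (r : ℝ) :
    ‖T (D.wave r x)‖ ^ 2 ≤ ‖T‖ ^ 2 * ‖x‖ ^ 2 := by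
  have : ‖T (D.wave r x)‖ ≤ ‖T‖ * ‖x‖ := by
    have := T.le_opNorm (D.wave r x)
    rwa [norm_wave_apply] at this
  calc _ ≤ (‖T‖ * ‖x‖) ^ 2 := by gcongr
    _ = _ := by ring

theorem mean_T_wave_nonneg (D : LineCalculus H) (ω : Ultrafilter ℕ) (hω : (ω : Filter ℕ) ≤ atTop)
    (T : H →L[ℂ] H) (x : H) : 0 ≤ ultraMean ω (fun r : ℝ => ‖T (D.wave r x)‖ ^ 2) := by
  have := ultraMean_mono ω (BC.const 0) (bc_T_wave D T x) (fun r => by positivity)
  rwa [ultraMean_const ω hω] at this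

theorem mean_T_wave_le (D : LineCalculus H) (ω : Ultrafilter ℕ) (hω : (ω : Filter ℕ) ≤ atTop)
    (T : H →L[ℂ] H) (x : H) :
    ultraMean ω (fun r : ℝ => ‖T (D.wave r x)‖ ^ 2) ≤ ‖T‖ ^ 2 * ‖x‖ ^ 2 := by
  have := ultraMean_mono ω (bc_T_wave D T x) (BC.const (‖T‖ ^ 2 * ‖x‖ ^ 2)) (T_wave_sq_le D T x)
  rwa [ultraMean_const ω hω] at this

theorem mean_T_wave_wave (D : LineCalculus H) (ω : Ultrafilter ℕ) (hω : (ω : Filter ℕ) ≤ atTop)
    (T : H →L[ℂ] H) (x : H) (t : ℝ) :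
    ultraMean ω (fun r : ℝ => ‖T (D.wave r (D.wave t x))‖ ^ 2)
      = ultraMean ω (fun r : ℝ => ‖T (D.wave r x)‖ ^ 2) := by
  rw [← ultraMean_shift ω hω (bc_T_wave D T x) t]
  congr 1
  funext r
  rw [wave_add_apply]

theorem mean_T_wave_smul (D : LineCalculus H) (ω : Ultrafilter ℕ)
    (T : H →L[ℂ] H) (c : ℂ) (x : H) :
    ultraMean ω (fun r : ℝ => ‖T (D.wave r (c • x))‖ ^ 2)
      = ‖c‖ ^ 2 * ultraMean ω (fun r : ℝ => ‖T (D.wave r x)‖ ^ 2) := by
  rw [← ultraMean_const_mul ω _ (bc_T_wave D T x)]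
  congr 1
  funext r
  rw [map_smul, map_smul, norm_smul]
  ring

theorem mean_T_wave_parallelogram (D : LineCalculus H) (ω : Ultrafilter ℕ)
    (T : H →L[ℂ] H) (x y : H) :
    ultraMean ω (fun r : ℝ => ‖T (D.wave r (x + y))‖ ^ 2)
      + ultraMean ω (fun r : ℝ => ‖T (D.wave r (x - y))‖ ^ 2)
      = 2 * (ultraMean ω (fun r : ℝ => ‖T (D.wave r x)‖ ^ 2)
        + ultraMean ω (fun r : ℝ => ‖T (D.wave r y)‖ ^ 2)) := by
  rw [← ultraMean_add ω (bc_T_wave D T _) (bc_T_wave D T _),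
    ← ultraMean_add ω (bc_T_wave D T _) (bc_T_wave D T _),
    ← ultraMean_const_mul ω _ ((bc_T_wave D T _).add (bc_T_wave D T _))]
  congr 1
  funext r
  rw [map_add, map_add, map_sub, map_sub]
  have := parallelogram_law_with_norm ℂ (T (D.wave r x)) (T (D.wave r y))
  nlinarith [this]

/-- perturbation: `mean ‖T U_r x‖² ≥ mean ‖T U_r y‖² / 2 − ‖T‖² ‖x − y‖²`. -/
theorem mean_T_wave_perturb (D : LineCalculus H) (ω : Ultrafilter ℕ) (hω : (ω : Filter ℕ) ≤ atTop)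
    (T : H →L[ℂ] H) (x y : H) :
    ultraMean ω (fun r : ℝ => ‖T (D.wave r y)‖ ^ 2) / 2 - ‖T‖ ^ 2 * ‖x - y‖ ^ 2
      ≤ ultraMean ω (fun r : ℝ => ‖T (D.wave r x)‖ ^ 2) := by
  have h1 : ∀ r : ℝ, ‖T (D.wave r y)‖ ^ 2 / 2 - ‖T‖ ^ 2 * ‖x - y‖ ^ 2 ≤ ‖T (D.wave r x)‖ ^ 2 := by
    intro r
    have h2 := T_wave_sq_le D T (x - y) r
    rw [map_sub, map_sub] at h2
    have h3 := parallelogram_law_with_norm ℂ (T (D.wave r x))
      (T (D.wave r x) - T (D.wave r y))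
    have h4 : T (D.wave r x) - (T (D.wave r x) - T (D.wave r y)) = T (D.wave r y) := by abel
    rw [h4] at h3
    nlinarith [h3, h2, norm_nonneg (T (D.wave r x) + (T (D.wave r x) - T (D.wave r y)))]
  have h5 := ultraMean_mono ω
    (((bc_T_wave D T y).div_const 2).sub (BC.const (‖T‖ ^ 2 * ‖x - y‖ ^ 2))) (bc_T_wave D T x) h1
  rwa [ultraMean_sub ω ((bc_T_wave D T y).div_const 2) (BC.const _),
    ultraMean_div_const ω (bc_T_wave D T y), ultraMean_const ω hω] at h5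

/-! ### the same for `mm` -/

theorem bc_mm (S : ModularDatum H) (T w : H →L[ℂ] H) :
    BC fun r : ℝ => ‖T (S.D.wave r (w S.vac))‖ ^ 2 := bc_T_wave S.D T _

theorem mm_nonneg (S : ModularDatum H) (ω : Ultrafilter ℕ) (hω : (ω : Filter ℕ) ≤ atTop)
    (T w : H →L[ℂ] H) : 0 ≤ mm S ω T w := mean_T_wave_nonneg S.D ω hω T _

theorem mm_le (S : ModularDatum H) (ω : Ultrafilter ℕ) (hω : (ω : Filter ℕ) ≤ atTop)
    (T w : H →L[ℂ] H) : mm S ω T w ≤ ‖T‖ ^ 2 * beta S w := mean_T_wave_le S.D ω hω T _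

theorem mm_flow (S : ModularDatum H) (ω : Ultrafilter ℕ) (hω : (ω : Filter ℕ) ≤ atTop)
    (T w : H →L[ℂ] H) (t : ℝ) : mm S ω T (S.flow t w) = mm S ω T w := by
  unfold mm
  rw [flow_vac]
  exact mean_T_wave_wave S.D ω hω T _ t

theorem mm_smul (S : ModularDatum H) (ω : Ultrafilter ℕ) (T w : H →L[ℂ] H) (c : ℂ) :
    mm S ω T (c • w) = ‖c‖ ^ 2 * mm S ω T w := by
  unfold mm
  rw [smul_apply]
  exact mean_T_wave_smul S.D ω T c _

theorem mm_parallelogram (S : ModularDatum H) (ω : Ultrafilter ℕ) (T w b : H →L[ℂ] H) :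
    mm S ω T (w + b) + mm S ω T (w - b) = 2 * (mm S ω T w + mm S ω T b) := by
  unfold mm
  rw [add_apply, sub_apply]
  exact mean_T_wave_parallelogram S.D ω T _ _

theorem exists_lt_T_wave_of_lt_mm (S : ModularDatum H) (ω : Ultrafilter ℕ)
    (hω : (ω : Filter ℕ) ≤ atTop) (T w : H →L[ℂ] H) (c : ℝ) (h : c < mm S ω T w) :
    ∃ r : ℝ, c < ‖T (S.D.wave r (w S.vac))‖ ^ 2 :=
  exists_gt_of_lt_ultraMean ω hω (bc_mm S T w) c h

theorem beta_nonneg (S : ModularDatum H) (w : H →L[ℂ] H) : 0 ≤ beta S w := by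
  unfold beta; positivity

theorem beta_smul (S : ModularDatum H) (w : H →L[ℂ] H) (c : ℂ) :
    beta S (c • w) = ‖c‖ ^ 2 * beta S w := by
  unfold beta
  rw [smul_apply, norm_smul]
  ring

theorem beta_parallelogram (S : ModularDatum H) (w b : H →L[ℂ] H) :
    beta S (w + b) + beta S (w - b) = 2 * (beta S w + beta S b) := by
  unfold beta
  rw [add_apply, sub_apply]
  have := parallelogram_law_with_norm ℂ (w S.vac) (b S.vac)
  nlinarith [this]

theorem XX_nonneg (S : ModularDatum H) (w : H →L[ℂ] H) : 0 ≤ XX S w := by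
  unfold XX; positivity

theorem XX_smul (S : ModularDatum H) (w : H →L[ℂ] H) (c : ℂ) :
    XX S (c • w) = ‖c‖ ^ 4 * XX S w := by
  unfold XX
  rw [star_smul, smul_mul_smul_comm, smul_apply, norm_smul, norm_mul]
  simp only [RCLike.star_def, RCLike.norm_conj]
  ring

/-- Cauchy–Schwarz: `β² ≤ X`. -/
theorem beta_sq_le_XX (S : ModularDatum H) (w : H →L[ℂ] H) : beta S w ^ 2 ≤ XX S w := by
  unfold beta XX
  have h1 : (‖w S.vac‖ ^ 2 : ℝ) = (inner ℂ S.vac ((star w * w) S.vac)).re := by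
    rw [ContinuousLinearMap.star_eq_adjoint]
    change _ = (inner ℂ S.vac ((ContinuousLinearMap.adjoint w) (w S.vac))).re
    rw [ContinuousLinearMap.adjoint_inner_right, inner_self_eq_norm_sq_to_K]
    norm_cast
  have h2 : ‖w S.vac‖ ^ 2 ≤ ‖(star w * w) S.vac‖ := by
    rw [h1]
    calc _ ≤ ‖inner ℂ S.vac ((star w * w) S.vac)‖ := Complex.re_le_norm _
      _ ≤ ‖S.vac‖ * ‖(star w * w) S.vac‖ := norm_inner_le_norm _ _
      _ = _ := by rw [S.norm_vac, one_mul]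
  gcongr

end Crest.Agent.R84
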