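import Crest.Prelude.Def_ModularData

set_option autoImplicit false

open Filter MeasureTheory Crest.OpAlg
open scoped Topology

namespace Crest.Agent.R84.MeanL

theorem windowMean_eq (f : ℝ → ℝ) (k : ℕ) :
    windowMean f k = (2 * (k:ℝ))⁻¹ * ∫ t in Set.Icc (-(k : ℝ)) (k : ℝ), f t := by
  unfold windowMean
  rw [setAverage_eq]
  simp only [measureReal_def, Real.volume_Icc, smul_eq_mul]
  congr 2
  rw [ENNReal.toReal_ofReal (by have := Nat.cast_nonneg (α := ℝ) k; linarith)]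
  ring

theorem abs_windowMean_le {f : ℝ → ℝ} {B : ℝ} (hB : ∀ t, |f t| ≤ B) (k : ℕ) :
    |windowMean f k| ≤ B := by
  have hB0 : 0 ≤ B := le_trans (abs_nonneg _) (hB 0)
  rw [windowMean_eq]
  rcases Nat.eq_zero_or_pos k with rfl | hk
  · simpa using hB0
  have hk' : (0:ℝ) < k := by exact_mod_cast hk
  have h1 : ‖∫ t in Set.Icc (-(k : ℝ)) (k : ℝ), f t‖ ≤ B * (volume (Set.Icc (-(k : ℝ)) (k : ℝ))).toReal := by
    apply norm_setIntegral_le_of_norm_le_const
    · simp
    · intro x _; exact hB x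
  rw [Real.volume_Icc, ENNReal.toReal_ofReal (by linarith)] at h1
  rw [abs_mul, abs_of_pos (by positivity : (0:ℝ) < (2 * (k:ℝ))⁻¹)]
  rw [Real.norm_eq_abs] at h1
  calc (2 * (k:ℝ))⁻¹ * |∫ t in Set.Icc (-(k : ℝ)) (k : ℝ), f t| 
      ≤ (2 * (k:ℝ))⁻¹ * (B * ((k:ℝ) - -(k:ℝ))) := by gcongr
    _ = B := by field_simp; ring

theorem tendsto_ultraMean (ω : Ultrafilter ℕ) {f : ℝ → ℝ} {B : ℝ} (hB : ∀ t, |f t| ≤ B) :
    Tendsto (windowMean f) (ω : Filter ℕ) (𝓝 (ultraMean ω f)) := by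
  have hmem : ∀ k, windowMean f k ∈ Set.Icc (-B) B := fun k => abs_le.mp (abs_windowMean_le hB k)
  have hc : IsCompact (Set.Icc (-B) B) := isCompact_Icc
  have : (Set.Icc (-B) B) ∈ (ω.map (windowMean f) : Filter ℝ) := by
    simp only [Ultrafilter.coe_map, mem_map]
    exact Filter.Eventually.of_forall hmem
  obtain ⟨x, _, hx⟩ := hc.ultrafilter_le_nhds (ω.map (windowMean f)) (by simpa using this)
  have hx' : Tendsto (windowMean f) (ω : Filter ℕ) (𝓝 x) := hx
  exact tendsto_nhds_limUnder ⟨x, hx'⟩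

theorem ultraMean_eq_of_tendsto (ω : Ultrafilter ℕ) {f : ℝ → ℝ} {x : ℝ}
    (h : Tendsto (windowMean f) (ω : Filter ℕ) (𝓝 x)) : ultraMean ω f = x :=
  h.limUnder_eq

theorem windowMean_add {f g : ℝ → ℝ} (hf : Continuous f) (hg : Continuous g) (k : ℕ) :
    windowMean (fun t => f t + g t) k = windowMean f k + windowMean g k := by
  simp only [windowMean_eq]
  rw [integral_add (hf.continuousOn.integrableOn_Icc) (hg.continuousOn.integrableOn_Icc)]
  ring

theorem windowMean_const_mul (c : ℝ) (f : ℝ → ℝ) (k : ℕ) :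
    windowMean (fun t => c * f t) k = c * windowMean f k := by
  simp only [windowMean_eq]
  rw [integral_const_mul]
  ring

theorem windowMean_mono {f g : ℝ → ℝ} (hf : Continuous f) (hg : Continuous g)
    (hfg : ∀ t, f t ≤ g t) (k : ℕ) :
    windowMean f k ≤ windowMean g k := by
  simp only [windowMean_eq]
  have : ∫ t in Set.Icc (-(k : ℝ)) (k : ℝ), f t ≤ ∫ t in Set.Icc (-(k : ℝ)) (k : ℝ), g t :=
    integral_mono (hf.continuousOn.integrableOn_Icc) (hg.continuousOn.integrableOn_Icc) hfg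
  gcongr

theorem windowMean_const (c : ℝ) {k : ℕ} (hk : 0 < k) :
    windowMean (fun _ => c) k = c := by
  have hk' : (0:ℝ) < k := by exact_mod_cast hk
  rw [windowMean_eq]
  rw [setIntegral_const]
  simp only [smul_eq_mul, measureReal_def, Real.volume_Icc]
  rw [ENNReal.toReal_ofReal (by linarith)]
  field_simp
  ring

theorem ultraMean_add (ω : Ultrafilter ℕ) {f g : ℝ → ℝ} {A B : ℝ} (hf : Continuous f)
    (hg : Continuous g) (hA : ∀ t, |f t| ≤ A) (hB : ∀ t, |g t| ≤ B) :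
    ultraMean ω (fun t => f t + g t) = ultraMean ω f + ultraMean ω g := by
  apply ultraMean_eq_of_tendsto
  have := (tendsto_ultraMean ω hA).add (tendsto_ultraMean ω hB)
  refine this.congr ?_
  intro k
  rw [windowMean_add hf hg]

theorem ultraMean_const_mul (ω : Ultrafilter ℕ) (c : ℝ) {f : ℝ → ℝ} {A : ℝ}
    (hA : ∀ t, |f t| ≤ A) :
    ultraMean ω (fun t => c * f t) = c * ultraMean ω f := by
  apply ultraMean_eq_of_tendsto
  have := (tendsto_ultraMean ω hA).const_mul c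
  refine this.congr ?_
  intro k
  rw [windowMean_const_mul]

theorem ultraMean_mono (ω : Ultrafilter ℕ) {f g : ℝ → ℝ} {A B : ℝ} (hf : Continuous f)
    (hg : Continuous g) (hA : ∀ t, |f t| ≤ A) (hB : ∀ t, |g t| ≤ B) (hfg : ∀ t, f t ≤ g t) :
    ultraMean ω f ≤ ultraMean ω g :=
  le_of_tendsto_of_tendsto' (tendsto_ultraMean ω hA) (tendsto_ultraMean ω hB)
    (windowMean_mono hf hg hfg)

theorem ultraMean_const (ω : Ultrafilter ℕ) (hω : (ω : Filter ℕ) ≤ atTop) (c : ℝ) :
    ultraMean ω (fun _ => c) = c := by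
  apply ultraMean_eq_of_tendsto
  have h1 : ∀ᶠ k in (ω : Filter ℕ), windowMean (fun _ => c) k = c := by
    apply hω
    filter_upwards [eventually_gt_atTop 0] with k hk
    exact windowMean_const c hk
  exact (tendsto_const_nhds).congr' (h1.mono fun k hk => hk.symm)

theorem abs_ultraMean_le (ω : Ultrafilter ℕ) {f : ℝ → ℝ} {B : ℝ} (hB : ∀ t, |f t| ≤ B) :
    |ultraMean ω f| ≤ B := by
  have h := (tendsto_ultraMean ω hB).abs
  exact le_of_tendsto' h (abs_windowMean_le hB)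

theorem windowMean_eq' (f : ℝ → ℝ) (k : ℕ) :
    windowMean f k = (2 * (k:ℝ))⁻¹ * ∫ t in (-(k : ℝ))..(k : ℝ), f t := by
  rw [windowMean_eq, intervalIntegral.integral_of_le
    (by have := Nat.cast_nonneg (α := ℝ) k; linarith), integral_Icc_eq_integral_Ioc]

theorem windowMean_neg (f : ℝ → ℝ) (k : ℕ) :
    windowMean (fun t => f (-t)) k = windowMean f k := by
  rw [windowMean_eq', windowMean_eq', intervalIntegral.integral_comp_neg]
  simp

theorem ultraMean_neg (ω : Ultrafilter ℕ) (f : ℝ → ℝ) :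
    ultraMean ω (fun t => f (-t)) = ultraMean ω f := by
  unfold ultraMean
  congr 1
  funext k
  exact windowMean_neg f k

theorem abs_windowMean_shift_sub_le {f : ℝ → ℝ} {B : ℝ} (hf : Continuous f)
    (hB : ∀ t, |f t| ≤ B) (r : ℝ) (k : ℕ) :
    |windowMean (fun t => f (t + r)) k - windowMean f k| ≤ (2 * (k:ℝ))⁻¹ * (2 * (B * |r|)) := by
  rw [windowMean_eq', windowMean_eq', intervalIntegral.integral_comp_add_right, ← mul_sub,
    abs_mul, abs_of_nonneg (by positivity : (0:ℝ) ≤ (2 * (k:ℝ))⁻¹)]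
  have hi : ∀ a b : ℝ, IntervalIntegrable f volume a b := fun a b => hf.intervalIntegrable a b
  rw [intervalIntegral.integral_interval_sub_interval_comm (hi _ _) (hi _ _) (hi _ _)]
  have h1 : |∫ t in (-(k:ℝ) + r)..(-(k:ℝ)), f t| ≤ B * |r| := by
    have := intervalIntegral.norm_integral_le_of_norm_le_const (a := -(k:ℝ) + r) (b := -(k:ℝ))
      (f := f) (C := B) (fun x _ => hB x)
    simpa using this
  have h2 : |∫ t in ((k:ℝ) + r)..(k:ℝ), f t| ≤ B * |r| := by
    have := intervalIntegral.norm_integral_le_of_norm_le_const (a := (k:ℝ) + r) (b := (k:ℝ))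
      (f := f) (C := B) (fun x _ => hB x)
    simpa using this
  gcongr
  calc _ ≤ |∫ t in (-(k:ℝ) + r)..(-(k:ℝ)), f t| + |∫ t in ((k:ℝ) + r)..(k:ℝ), f t| := abs_sub _ _
    _ ≤ _ := by linarith

theorem ultraMean_shift (ω : Ultrafilter ℕ) (hω : (ω : Filter ℕ) ≤ atTop) {f : ℝ → ℝ} {B : ℝ}
    (hf : Continuous f) (hB : ∀ t, |f t| ≤ B) (r : ℝ) :
    ultraMean ω (fun t => f (t + r)) = ultraMean ω f := by
  apply ultraMean_eq_of_tendsto
  have h0 : Tendsto (fun k : ℕ => (2 * (k:ℝ))⁻¹ * (2 * (B * |r|))) atTop (𝓝 0) := by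
    have h1 : Tendsto (fun k : ℕ => (2 * (k:ℝ))) atTop atTop :=
      Tendsto.const_mul_atTop (by norm_num) tendsto_natCast_atTop_atTop
    have := (tendsto_inv_atTop_zero.comp h1).mul_const (2 * (B * |r|))
    simpa using this
  have h1 : Tendsto (fun k => windowMean (fun t => f (t + r)) k - windowMean f k)
      (ω : Filter ℕ) (𝓝 0) := by
    apply squeeze_zero_norm (a := fun k : ℕ => (2 * (k:ℝ))⁻¹ * (2 * (B * |r|)))
    · intro k; exact abs_windowMean_shift_sub_le hf hB r k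
    · exact h0.mono_left hω
  have := h1.add (tendsto_ultraMean ω hB)
  simpa using this

theorem exists_lt_of_ultraMean_le (ω : Ultrafilter ℕ) (hω : (ω : Filter ℕ) ≤ atTop) {f : ℝ → ℝ}
    {B c τ : ℝ} (hf : Continuous f) (hB : ∀ t, |f t| ≤ B) (hc : ultraMean ω f ≤ c) (hτ : 0 < τ) :
    ∃ t, f t < c + τ := by
  by_contra hcon
  push Not at hcon
  have h1 : ultraMean ω (fun _ => c + τ) ≤ ultraMean ω f :=
    ultraMean_mono ω continuous_const hf (A := |c + τ|) (fun _ => le_rfl) hB hcon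
  rw [ultraMean_const ω hω] at h1
  linarith

theorem exists_gt_of_le_ultraMean (ω : Ultrafilter ℕ) (hω : (ω : Filter ℕ) ≤ atTop) {f : ℝ → ℝ}
    {B c τ : ℝ} (hf : Continuous f) (hB : ∀ t, |f t| ≤ B) (hc : c ≤ ultraMean ω f) (hτ : 0 < τ) :
    ∃ t, c - τ < f t := by
  by_contra hcon
  push Not at hcon
  have h1 : ultraMean ω f ≤ ultraMean ω (fun _ => c - τ) :=
    ultraMean_mono ω hf continuous_const hB (B := |c - τ|) (fun _ => le_rfl) hcon
  rw [ultraMean_const ω hω] at h1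
  linarith

end Crest.Agent.R84.MeanL
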